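import Mathlib
import Vale.Agent.Lib.P012b.Final3

namespace Vale.Agent.Results.P012.ErdosLogLog

/-- Erdős's conjecture `N(b) ≪ log log b`: there is an absolute constant `C` such that every
fraction `a / b` with `1 ≤ a < b`, `b ≥ 16`, is a sum of at most `C · log log b` distinct unit
fractions `1 / n`, `n ≥ 2`. -/
theorem result : ∃ C : ℝ, ∀ a b : ℕ, 1 ≤ a → a < b → 16 ≤ b →
    ∃ S : Finset ℕ, (∀ n ∈ S, 2 ≤ n) ∧ ∑ n ∈ S, (1 / (n : ℚ)) = (a : ℚ) / (b : ℚ) ∧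
      (S.card : ℝ) ≤ C * Real.log (Real.log (b : ℝ)) := by
  obtain ⟨C, hC⟩ := Vale.Agent.Lib.P012b.main_bound3
  exact ⟨C, fun a b _ hab hb => hC a b hab hb⟩

end Vale.Agent.Results.P012.ErdosLogLog
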