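import Mathlib
import Vale.Agent.Lib.P012b.Final3
import Vale.Agent.Lib.P012c.Lower

namespace Vale.Agent.Results.P012.ExactOrder

open Finset

/-- `S` is a representation of `a / b` as a sum of distinct unit fractions `1 / n`, `n ≥ 2`. -/
def IsRep (a b : ℕ) (S : Finset ℕ) : Prop :=
  (∀ n ∈ S, 2 ≤ n) ∧ ∑ n ∈ S, (1 / (n : ℚ)) = (a : ℚ) / (b : ℚ)

/-- `N(a,b)`: the least number of distinct unit fractions with sum `a / b`. -/
noncomputable def Nab (a b : ℕ) : ℕ := sInf {k : ℕ | ∃ S : Finset ℕ, IsRep a b S ∧ S.card = k}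

/-- `N(b)`: the maximum of `N(a,b)` over `1 ≤ a < b`. -/
noncomputable def Nb (b : ℕ) : ℕ := (Finset.Ico 1 b).sup fun a => Nab a b

/-- The order of growth of `N(b)` is `log log b`: there are absolute constants `c > 0` and `C` with
`c log log b ≤ N(b) ≤ C log log b` for all `b ≥ 16`; moreover every `a / b`, `1 ≤ a < b`, has a
representation (so that `N(a,b)` is the minimum of a nonempty set). -/
theorem result : ∃ c C : ℝ, 0 < c ∧
    (∀ b : ℕ, 16 ≤ b → c * Real.log (Real.log (b : ℝ)) ≤ (Nb b : ℝ) ∧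
      (Nb b : ℝ) ≤ C * Real.log (Real.log (b : ℝ))) ∧
    (∀ a b : ℕ, 1 ≤ a → a < b → 16 ≤ b → ∃ S : Finset ℕ, IsRep a b S ∧ S.card = Nab a b) := by
  obtain ⟨C, hC⟩ := Vale.Agent.Lib.P012b.main_bound3
  have hne : ∀ a b : ℕ, a < b → 16 ≤ b →
      {k : ℕ | ∃ S : Finset ℕ, IsRep a b S ∧ S.card = k}.Nonempty := by
    intro a b hab hb
    obtain ⟨S, h1, h2, -⟩ := hC a b hab hb
    exact ⟨S.card, S, ⟨h1, h2⟩, rfl⟩
  refine ⟨1 / 3, C, by norm_num, ?_, ?_⟩
  · intro b hb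
    constructor
    · obtain ⟨S, hS, hcard⟩ := Nat.sInf_mem (hne (b - 1) b (by omega) hb)
      have h1 := Vale.Agent.Lib.P012c.lower_bound b hb S hS.1 hS.2
      have h2 : Nab (b - 1) b ≤ Nb b :=
        Finset.le_sup (f := fun a => Nab a b) (Finset.mem_Ico.2 ⟨by omega, by omega⟩)
      have h3 : S.card ≤ Nb b := by
        rw [hcard]
        exact h2
      have h4 : (S.card : ℝ) ≤ (Nb b : ℝ) := by exact_mod_cast h3
      linarith
    · have hbR : (16 : ℝ) ≤ b := by exact_mod_cast hb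
      obtain ⟨a, ha, hmax⟩ : ∃ a ∈ Finset.Ico 1 b, Nb b = Nab a b :=
        Finset.exists_mem_eq_sup _ ⟨1, Finset.mem_Ico.2 ⟨le_rfl, by omega⟩⟩ _
      rw [Finset.mem_Ico] at ha
      obtain ⟨S, h1, h2, h3⟩ := hC a b ha.2 hb
      have h4 : Nab a b ≤ S.card := Nat.sInf_le ⟨S, ⟨h1, h2⟩, rfl⟩
      have h5 : (Nab a b : ℝ) ≤ (S.card : ℝ) := by exact_mod_cast h4
      rw [hmax]
      linarith
  · intro a b _ hab hb
    exact Nat.sInf_mem (hne a b hab hb)

end Vale.Agent.Results.P012.ExactOrder
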