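import Mathlib
import Vale.Agent.Lib.P012.Epoch

namespace Vale.Agent.Results.P012.LogLogSquared

/-- `N(b) ≪ (log log b)^2`: there is an absolute constant `C` such that every fraction `a / b`
with `1 ≤ a < b`, `b ≥ 16`, is a sum of at most `C (log log b)^2` distinct unit fractions
`1 / n`, `n ≥ 2`. -/
theorem result : ∃ C : ℝ, ∀ a b : ℕ, 1 ≤ a → a < b → 16 ≤ b →
    ∃ S : Finset ℕ, (∀ n ∈ S, 2 ≤ n) ∧ ∑ n ∈ S, (1 / (n : ℚ)) = (a : ℚ) / (b : ℚ) ∧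
      (S.card : ℝ) ≤ C * (Real.log (Real.log (b : ℝ))) ^ 2 := by
  obtain ⟨C, hC⟩ := Vale.Agent.Lib.P012.main_bound
  exact ⟨C, fun a b _ hab hb => hC a b hab hb⟩

end Vale.Agent.Results.P012.LogLogSquared
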